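import Vale.Agent.P207.H747.Fr
import Vale.Agent.P207.H747.J2

/-!
# P207: the rank one constants of a negatively curved locally symmetric metric

One number `b > 0` (`b²` = largest eigenvalue of all Jacobi operators) and one multiplicity `d`
for all frames and all unit vectors.
-/

open scoped Manifold ContDiff ENNReal Topology RealInnerProductSpace
open Bundle MeasureTheory Set Filter Module

set_option maxSynthPendingDepth 3
set_option linter.unusedSectionVars false

noncomputable section

namespace Vale.Agent.P207.H747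

/-! ### isometric tensors -/

namespace ACT

variable {V V' : Type*} [NormedAddCommGroup V] [InnerProductSpace ℝ V] [FiniteDimensional ℝ V]
  [NormedAddCommGroup V'] [InnerProductSpace ℝ V'] [FiniteDimensional ℝ V']

/-- `L` carries `S` to `S'` -/
def Iso (S : ACT V) (S' : ACT V') (L : V ≃ₗᵢ[ℝ] V') : Prop :=
  ∀ x y z, L (S.R x y z) = S'.R (L x) (L y) (L z)

variable {S : ACT V} {S' : ACT V'} {L : V ≃ₗᵢ[ℝ] V'}

theorem Iso.symm (h : Iso S S' L) : Iso S' S L.symm := by
  intro x y z
  apply L.injective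
  rw [L.apply_symm_apply, h, L.apply_symm_apply, L.apply_symm_apply, L.apply_symm_apply]

theorem Iso.K (h : Iso S S' L) (v z : V) : S'.K (L v) (L z) = L (S.K v z) := by
  rw [K_apply, K_apply, h]

theorem Iso.nrm (h : Iso S S' L) {b : ℝ} (hb : S.Nrm b) : S'.Nrm b where
  pos := hb.pos
  bd v hv c z hz hz0 := by
    have h1 : S.K (L.symm v) (L.symm z) = c • L.symm z := by
      rw [h.symm.K, hz, map_smul]
    refine hb.bd (L.symm v) (by rw [L.symm.norm_map, hv]) c _ h1 fun h0 => hz0 ?_
    have := congrArg L h0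
    rwa [L.apply_symm_apply, map_zero] at this
  att v hv := by
    obtain ⟨y, hy0, hy⟩ := hb.att (L.symm v) (by rw [L.symm.norm_map, hv])
    refine ⟨L y, fun h0 => hy0 ?_, ?_⟩
    · exact L.injective (by rw [h0, map_zero])
    · have h1 := h.K (L.symm v) y
      rw [L.apply_symm_apply] at h1
      rw [h1, hy, map_smul]

theorem Iso.finrank_le (h : Iso S S' L) (v : V) (c : ℝ) :
    finrank ℝ (End.eigenspace (S.K v) c) ≤ finrank ℝ (End.eigenspace (S'.K (L v)) c) := by
  have hle : Submodule.map (L.toLinearEquiv : V →ₗ[ℝ] V') (End.eigenspace (S.K v) c) ≤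
      End.eigenspace (S'.K (L v)) c := by
    rintro _ ⟨z, hz, rfl⟩
    rw [End.mem_eigenspace_iff]
    have h1 : S.K v z = c • z := End.mem_eigenspace_iff.1 hz
    change S'.K (L v) (L z) = c • L z
    rw [h.K, h1, map_smul]
  have h2 := Submodule.finrank_mono hle
  have h3 := (Submodule.equivMapOfInjective (L.toLinearEquiv : V →ₗ[ℝ] V') L.injective
    (End.eigenspace (S.K v) c)).finrank_eq
  rw [← h3] at h2
  exact h2

theorem Iso.finrank (h : Iso S S' L) (v : V) (c : ℝ) :
    finrank ℝ (End.eigenspace (S'.K (L v)) c) = finrank ℝ (End.eigenspace (S.K v) c) := by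
  refine le_antisymm ?_ (h.finrank_le v c)
  have h1 := h.symm.finrank_le (L v) c
  rwa [L.symm_apply_apply] at h1

end ACT

/-! ### rotated components -/

variable {n : ℕ}

theorem Rmap_inner (r : Fin n → Fin n → Fin n → Fin n → ℝ) (x y z w : En n) :
    ⟪Rmap r x y z, w⟫ = ∑ i, ∑ j, ∑ k, ∑ l, x i * y j * z k * w l * r i j k l := by
  rw [inner_en]
  simp only [Rmap_apply, Finset.sum_mul]
  rw [Finset.sum_comm]
  refine Finset.sum_congr rfl fun i _ => ?_
  rw [Finset.sum_comm]
  refine Finset.sum_congr rfl fun j _ => ?_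
  rw [Finset.sum_comm]
  refine Finset.sum_congr rfl fun k _ => Finset.sum_congr rfl fun l _ => ?_
  ring

theorem Rmap_rot {r r' : Fin n → Fin n → Fin n → Fin n → ℝ} (A : Q.H892.OG n)
    (h : ∀ i j k l, r' i j k l =
      ∑ a, A.1 a i * ∑ b, A.1 b j * ∑ c, A.1 c k * ∑ d, A.1 d l * r a b c d) (x y z : En n) :
    Q.H892.actL A (Rmap r' x y z) = Rmap r (Q.H892.actL A x) (Q.H892.actL A y)
      (Q.H892.actL A z) := by
  set L := Q.H892.actL A with hL
  have hcoord : ∀ i a, L (ee i) a = A.1 a i := by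
    intro i a
    change (A.1.mulVec (ee i).ofLp) a = A.1 a i
    rw [Matrix.mulVec, dotProduct, Finset.sum_eq_single i (fun i' _ hi => by simp [hi]) (by simp)]
    simp
  have hb : ∀ i j k, L (Rmap r' (ee i) (ee j) (ee k)) =
      Rmap r (L (ee i)) (L (ee j)) (L (ee k)) := by
    intro i j k
    have hin : ∀ w, ⟪L (Rmap r' (ee i) (ee j) (ee k)), w⟫ =
        ⟪Rmap r (L (ee i)) (L (ee j)) (L (ee k)), w⟫ := by
      intro w
      obtain ⟨w, rfl⟩ := L.surjective w
      revert w
      refine en_induct ?_ ?_ ?_ ?_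
      · simp
      · intro x y hx hy
        rw [map_add, inner_add_right, inner_add_right, hx, hy]
      · intro c x hx
        rw [map_smul, inner_smul_right, inner_smul_right, hx]
      intro l
      rw [L.inner_map_map, inner_ee, Rmap_ee, h, Rmap_inner]
      simp only [hcoord, Finset.mul_sum]
      refine Finset.sum_congr rfl fun a _ => Finset.sum_congr rfl fun b _ =>
        Finset.sum_congr rfl fun c _ => Finset.sum_congr rfl fun d _ => ?_
      ring
    exact ext_inner_right ℝ hin
  revert x y z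
  refine en_induct ?_ ?_ ?_ ?_
  · intro y z; simp
  · intro x x' hx hx' y z
    simp only [map_add, LinearMap.add_apply, hx, hx']
  · intro c x hx y z
    simp only [map_smul, LinearMap.smul_apply, hx]
  intro i
  refine en_induct ?_ ?_ ?_ ?_
  · intro z; simp
  · intro x x' hx hx' z
    simp only [map_add, LinearMap.add_apply, hx, hx']
  · intro c x hx z
    simp only [map_smul, LinearMap.smul_apply, hx]
  intro j
  refine en_induct ?_ ?_ ?_ ?_
  · simp
  · intro x x' hx hx'
    simp only [map_add, hx, hx']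
  · intro c x hx
    simp only [map_smul, hx]
  exact fun k => hb i j k

/-! ### the metric -/

open Vale.Agent.P255 (RMetric)
open Vale.Agent.P207 Vale.Agent.P207.Q Vale.Agent.P207.Q.H892
  Vale.Agent.P207.Q.H545 Vale.Agent.P207.Q.H130

variable {M : Type} [TopologicalSpace M] [ChartedSpace (EV n) M]
  [IsManifold 𝓘(ℝ, EV n) ∞ M] {g : RMetric (EV n) M}

/-- the algebraic curvature tensor of a frame -/
def act (hL : LocSymmetric g) (hN : NegCurvature g) (f : Fr g) : ACT (En n) :=
  (cct hL hN f).toACT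

theorem act_R_eq (hL : LocSymmetric g) (hN : NegCurvature g) (f : Fr g) :
    (act hL hN f).R = Rmap (Rf g f) := rfl

theorem act_R (hL : LocSymmetric g) (hN : NegCurvature g) (f : Fr g) (i j k l : Fin n) :
    (act hL hN f).R (ee i) (ee j) (ee k) l = Rf g f i j k l := by
  rw [act_R_eq]
  exact Rmap_ee _ i j k l

theorem act_K (hL : LocSymmetric g) (hN : NegCurvature g) (f : Fr g) (i j l : Fin n) :
    (act hL hN f).K (ee i) (ee j) l = Rf g f i j i l := by
  rw [ACT.K_apply]
  exact act_R hL hN f i j i l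

variable [NeZero n] [CompactSpace M] [T2Space M] [ConnectedSpace M]

/-- the tensors of any two frames are isometric -/
theorem exists_iso (hL : LocSymmetric g) (hN : NegCurvature g) (f₀ f : Fr g) :
    ∃ L : En n ≃ₗᵢ[ℝ] En n, ACT.Iso (act hL hN f) (act hL hN f₀) L := by
  obtain ⟨f₁, h1, h2⟩ := exists_transport hL hN f₀ f.pt
  obtain ⟨A, hA⟩ := Fr.exists_rot (g := g) h1
  have h3 : ∀ i j k l, Rf g f i j k l =
      ∑ a, A.1 a i * ∑ b, A.1 b j * ∑ c, A.1 c k * ∑ d, A.1 d l * Rf g f₀ a b c d := by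
    intro i j k l
    rw [← hA, Rf_rot]
    simp only [h2]
  have h4 := Rmap_rot (r := Rf g f₀) (r' := Rf g f) A h3
  refine ⟨actL A, ?_⟩
  unfold ACT.Iso
  rw [act_R_eq, act_R_eq]
  exact h4

/-- **the rank one constants** -/
theorem exists_rank_one (hn : 2 ≤ n) (hL : LocSymmetric g) (hN : NegCurvature g) :
    ∃ (b : ℝ) (d : ℕ), 0 < b ∧ ∀ f : Fr g, (act hL hN f).Nrm b ∧
      ∀ v : En n, ‖v‖ = 1 → finrank ℝ (End.eigenspace ((act hL hN f).K v) (b ^ 2)) = d := by
  have hfr : 2 ≤ finrank ℝ (En n) := by simpa using hn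
  obtain ⟨x⟩ : Nonempty M := inferInstance
  obtain ⟨f₀, -⟩ := exists_frame g x
  obtain ⟨b, hb⟩ := ACT.exists_nrm (S := act hL hN f₀) hfr
  set v₀ : En n := ee ⟨0, by omega⟩ with hv₀
  have hv₀1 : ‖v₀‖ = 1 := by rw [hv₀]; simp
  refine ⟨b, finrank ℝ (End.eigenspace ((act hL hN f₀).K v₀) (b ^ 2)), hb.pos, fun f => ?_⟩
  obtain ⟨L, hLi⟩ := exists_iso hL hN f f₀
  refine ⟨hLi.nrm hb, fun v hv => ?_⟩
  rw [← hLi.finrank v₀ (b ^ 2)]
  exact ACT.finrank_E4 hfr _ hv (by rw [L.norm_map, hv₀1]) _

end Vale.Agent.P207.H747
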