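import Vale.Agent.P207.H747.Type
import Vale.Agent.P207.Kat.Spec
import Vale.Agent.P207.H575.Quat

/-!
# P207: the dimensions for metrics of quaternionic or Cayley type
-/

open scoped Manifold ContDiff ENNReal Topology RealInnerProductSpace
open Bundle MeasureTheory Set Filter Module

set_option maxSynthPendingDepth 3
set_option linter.unusedSectionVars false

noncomputable section

namespace Vale.Agent.P207.H747

open Vale.Agent.P255 (RMetric coefIn Gam Riem)
open Vale.Agent.P207 Vale.Agent.P207.Q Vale.Agent.P207.Q.H892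
  Vale.Agent.P207.Q.H545 Vale.Agent.P207.Q.H130

variable {n : ℕ} {M : Type} [TopologicalSpace M] [ChartedSpace (EV n) M]
  [IsManifold 𝓘(ℝ, EV n) ∞ M] {g : RMetric (EV n) M}
variable [NeZero n] [CompactSpace M] [T2Space M] [ConnectedSpace M]

/-- **the constants of a metric of quaternionic or Cayley type** -/
theorem exists_qc (hL : LocSymmetric g) (hN : NegCurvature g) (hq : Kat.QCType g) :
    ∃ (b : ℝ) (d : ℕ), 0 < b ∧ ((d = 3 ∧ ∃ m, 2 ≤ m ∧ n = 4 * m) ∨ (d = 7 ∧ n = 16)) ∧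
      d + 2 ≤ n ∧
      ∀ f : Fr g, ∃ S : ACT (En n), S.Nrm 2 ∧
        (∀ i j k l, S.R (ee i) (ee j) (ee k) l = 4 / b ^ 2 * Rf g f i j k l) ∧
        ∀ v : En n, ‖v‖ = 1 → finrank ℝ (End.eigenspace (S.K v) 4) = d ∧
          1 + d + finrank ℝ (End.eigenspace (S.K v) 1) = n := by
  obtain ⟨κ, a, u, v, w₁, w₂, w₃, hκ, hu, hl, hw₃, h1, h2, h3⟩ := hq
  have hn : 2 ≤ n := by
    have := hl.fintype_card_le_finrank
    simpa [EV] using this
  have hn' : 2 ≤ finrank ℝ (En n) := by simpa using hn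
  obtain ⟨b, d, hb, hd, hdn, H, f, S, v', x, s1, -, s3, hv', hx0, hx⟩ :=
    exists_of_riem hn hL hN a hu hκ hl hw₃ h1 h2 h3
  have hdec := H575.finrank_decomp s1 hv'
  have hdim := H575.dims hn' s1 hv' hx hx0 (by
    change 2 ≤ finrank ℝ (End.eigenspace (S.K v') 4)
    rw [s3 v' hv']; exact hd)
  change finrank ℝ (End.eigenspace (S.K v') 4) = 3 ∨
    (finrank ℝ (End.eigenspace (S.K v') 4) = 7 ∧ _ ∧ _) at hdim
  rw [s3 v' hv'] at hdim
  change finrank ℝ (En n) = 1 + finrank ℝ (End.eigenspace (S.K v') 4) +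
    finrank ℝ (End.eigenspace (S.K v') 1) at hdec
  have hEn : finrank ℝ (En n) = n := by simp
  have he1 : 1 ≤ finrank ℝ (End.eigenspace (S.K v') 1) := by
    refine Nat.one_le_iff_ne_zero.2 fun h5 => hx0 ?_
    have h6 : x ∈ End.eigenspace (S.K v') 1 := by
      rw [End.mem_eigenspace_iff, hx, one_smul]
    rw [Submodule.finrank_eq_zero.1 h5] at h6
    exact (Submodule.mem_bot ℝ).1 h6
  refine ⟨b, d, hb, ?_, ?_, fun f => ?_⟩
  · rcases hdim with h | ⟨h, -, h'⟩
    · refine Or.inl ⟨h, ?_⟩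
      obtain ⟨m, hm, hm'⟩ := H575.exists_m hn' s1 hv' hx hx0 (by
        change finrank ℝ (End.eigenspace (S.K v') 4) = 3
        rw [s3 v' hv']; exact h)
      exact ⟨m, hm, by rw [← hEn]; exact hm'⟩
    · exact Or.inr ⟨h, by rw [← hEn]; exact h'⟩
  · rw [s3 v' hv'] at hdec
    omega
  · obtain ⟨S, t1, t2, t3⟩ := H f
    refine ⟨S, t1, t2, fun v hv => ⟨t3 v hv, ?_⟩⟩
    have h4 := H575.finrank_decomp t1 hv
    change finrank ℝ (En n) = 1 + finrank ℝ (End.eigenspace (S.K v) 4) +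
      finrank ℝ (End.eigenspace (S.K v) 1) at h4
    rw [t3 v hv, hEn] at h4
    exact h4.symm

end Vale.Agent.P207.H747
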