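import Vale.Agent.P207.H747.Comp
import Vale.Agent.P207.Q.H130.Desc
import Vale.Agent.P207.Q.H717.PPinch
import Vale.Agent.P207.Q.FrSys
import Vale.Agent.P207.Q.H545.Bianchi

/-!
# P207: the curvature tensor of a negatively curved locally symmetric metric on frames

For a metric with `∇R = 0` and negative curvature the components `Rf g f` in every orthonormal
frame `f` are those of a parallel negatively curved algebraic curvature tensor (`cct`), they are
constant along the horizontal flows, and every frame can be transported to every point.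
-/

open scoped Manifold ContDiff ENNReal Topology
open Bundle MeasureTheory Set Filter

set_option maxSynthPendingDepth 3

noncomputable section

namespace Vale.Agent.P207.H747

open Vale.Agent.P255 (RMetric coefIn Gam Riem IsGeo Metric trans coefL expg geo Npc chris chrisB
  IsMetricOn)
open Vale.Agent.P207 Vale.Agent.P207.D1 Vale.Agent.P207.Q Vale.Agent.P207.Q.H892
  Vale.Agent.P207.Q.H545 Vale.Agent.P207.Q.H717 Vale.Agent.P207.Q.H130

variable {n : ℕ} {M : Type} [TopologicalSpace M] [ChartedSpace (EV n) M]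
  [IsManifold 𝓘(ℝ, EV n) ∞ M] {g : RMetric (EV n) M}

theorem nabR_zero (hL : LocSymmetric g) (a : M) {u : EV n} (hu : u ∈ (chartAt (EV n) a).target)
    (w x y z : EV n) : nabR ((mt g).coef a) u w x y z = 0 := by
  have h := hL a u hu w x y z
  have hm := (mt g).isMetricOn a
  have hR : ∀ x y z, Riem (coefIn g a) u x y z = curvT ((mt g).coef a) u x y z := fun x y z =>
    riem_mt g a hu x y z
  have hG : ∀ x y, Gam (coefIn g a) u x y = chrisB ((mt g).coef a) u x y := fun x y =>
    gam_mt g a hu x y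
  have hd : fderiv ℝ (fun p => Riem (coefIn g a) p x y z) u w =
      fderiv ℝ (curvT ((mt g).coef a)) u w x y z := by
    have he : (fun p => Riem (coefIn g a) p x y z) =ᶠ[𝓝 u]
        fun p => curvT ((mt g).coef a) p x y z := by
      filter_upwards [(chartAt (EV n) a).open_target.mem_nhds hu] with p hp
      exact riem_mt g a hp x y z
    rw [he.fderiv_eq]
    have h0 : HasFDerivAt (curvT ((mt g).coef a)) (fderiv ℝ (curvT ((mt g).coef a)) u) u :=
      ((contDiffAt_curvT hm hu).differentiableAt (by simp)).hasFDerivAt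
    have h1 := ((h0.clm_apply (hasFDerivAt_const x u)).clm_apply
      (hasFDerivAt_const y u)).clm_apply (hasFDerivAt_const z u)
    rw [h1.fderiv]
    simp
  rw [hd] at h
  simp only [hR, hG] at h
  exact h

theorem fderiv_RR_hor_zero (hL : LocSymmetric g) (a : M) {p : EV n × (Fin n → EV n)}
    (hp : p.1 ∈ (chartAt (EV n) a).target) (m i j k l : Fin n) :
    fderiv ℝ (RR ((mt g).coef a) i j k l) p (Brk.hor ((mt g).coef a) m p) = 0 := by
  rw [fderiv_RR_hor ((mt g).isMetricOn a) hp, nabR_zero hL a hp, map_zero]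
  rfl

/-- the curvature components are constant along the horizontal flows of the frame vectors -/
theorem Rf_flow [NeZero n] [T2Space M] (hL : LocSymmetric g) {m : Fin n} {Φ : ℝ → Fr g → Fr g}
    (h : IsHorFlow g (Pi.single m 1) Φ) (f : Fr g) (i j k l : Fin n) (t : ℝ) :
    Rf g (Φ t f) i j k l = Rf g f i j k l := by
  have hd : ∀ t, HasDerivAt (fun t => Rf g (Φ t f) i j k l) 0 t := by
    intro t
    set a := (Φ t f).pt with ha
    have hs : (Φ t f).pt ∈ (chartAt (EV n) a).source := mem_chart_source _ _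
    have htg : (chF a (Φ t f).1).1 ∈ (chartAt (EV n) a).target :=
      (chartAt (EV n) a).map_source hs
    have h1 := h.eqn f hs
    have h2 : HasFDerivAt (RR ((mt g).coef a) i j k l)
        (fderiv ℝ (RR ((mt g).coef a) i j k l) (chF a (Φ t f).1)) (chF a (Φ t f).1) :=
      ((contDiffAt_RR ((mt g).isMetricOn a) htg i j k l).differentiableAt (by simp)).hasFDerivAt
    have h3 := h2.comp_hasDerivAt t h1
    rw [hF_single] at h3
    rw [fderiv_RR_hor_zero hL a htg] at h3
    refine h3.congr_of_eventuallyEq ?_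
    have h4 : ∀ᶠ r in 𝓝 t, (Φ r f).pt ∈ (chartAt (EV n) a).source :=
      (Fr.continuous_pt.comp (h.continuous_left f)).continuousAt.preimage_mem_nhds
        ((chartAt (EV n) a).open_source.mem_nhds hs)
    filter_upwards [h4] with r hr
    exact Rf_eq (Φ r f) i j k l hr
  have h5 := is_const_of_deriv_eq_zero (fun t => (hd t).differentiableAt)
    (fun t => (hd t).deriv) t 0
  rw [h5, h.zero]

/-- the algebraic identity `R · R = 0` -/
theorem Rf_der (hL : LocSymmetric g) (f : Fr g) (i j a b c d : Fin n) :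
    ∑ k, (Rf g f i j k a * Rf g f k b c d + Rf g f i j k b * Rf g f a k c d
      + Rf g f i j k c * Rf g f a b k d + Rf g f i j k d * Rf g f a b c k) = 0 := by
  set x := f.pt with hx
  have hs : f.pt ∈ (chartAt (EV n) x).source := mem_chart_source _ _
  set p := chF x f.1 with hp
  have htg : p.1 ∈ (chartAt (EV n) x).target := (chartAt (EV n) x).map_source hs
  have hm := (mt g).isMetricOn x
  have ho : ∀ b c, (mt g).coef x p.1 (p.2 b) (p.2 c) = if b = c then (1 : ℝ) else 0 :=
    fun b c => (inner_chF g x hs b c).trans (f.2 b c)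
  have hR : ∀ i j k l, Rf g f i j k l = RR ((mt g).coef x) i j k l p := fun i j k l =>
    Rf_eq f i j k l hs
  -- the second derivatives commute
  have hC : ContDiffAt ℝ 2 (RR ((mt g).coef x) a b c d) p :=
    (contDiffAt_RR hm htg a b c d).of_le (by norm_cast)
  have hV : ∀ i, DifferentiableAt ℝ (Brk.hor ((mt g).coef x) i) p := fun i =>
    (Brk.hasFDerivAt_hor hm htg i).differentiableAt
  have h1 := Brk.fderiv_fderiv_sub hC (hV i) (hV j)
  have hz : ∀ i, (fun q => fderiv ℝ (RR ((mt g).coef x) a b c d) q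
      (Brk.hor ((mt g).coef x) i q)) =ᶠ[𝓝 p] fun _ => 0 := by
    intro i
    have h2 : ∀ᶠ q : EV n × (Fin n → EV n) in 𝓝 p, q.1 ∈ (chartAt (EV n) x).target :=
      continuous_fst.continuousAt.eventually ((chartAt (EV n) x).open_target.mem_nhds htg)
    filter_upwards [h2] with q hq
    exact fderiv_RR_hor_zero hL x hq i a b c d
  rw [(hz j).fderiv_eq, (hz i).fderiv_eq,
    Brk.lieBracket_hor_hor_orth hm htg (by simp) ho, fderiv_RR_ver hm htg] at h1
  have hz0 : fderiv ℝ (fun _ : EV n × (Fin n → EV n) => (0 : ℝ)) p = 0 := by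
    exact (hasFDerivAt_const (0 : ℝ) p).fderiv
  rw [hz0] at h1
  simp only [zero_apply, sub_zero, Matrix.of_apply] at h1
  have h2 : ∑ k, (Rf g f i j k a * Rf g f k b c d + Rf g f i j k b * Rf g f a k c d
      + Rf g f i j k c * Rf g f a b k d + Rf g f i j k d * Rf g f a b c k) =
      ∑ k, (-(RR ((mt g).coef x) i j a k p) * RR ((mt g).coef x) k b c d p
        + -(RR ((mt g).coef x) i j b k p) * RR ((mt g).coef x) a k c d p
        + -(RR ((mt g).coef x) i j c k p) * RR ((mt g).coef x) a b k d p
        + -(RR ((mt g).coef x) i j d k p) * RR ((mt g).coef x) a b c k p) := by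
    refine Finset.sum_congr rfl fun k _ => ?_
    simp only [hR]
    rw [RR_skew hm htg i j k a, RR_skew hm htg i j k b, RR_skew hm htg i j k c,
      RR_skew hm htg i j k d]
  rw [h2]
  exact h1.symm

/-- negative curvature on frames -/
theorem Rf_neg (hN : NegCurvature g) (f : Fr g) (v w : Fin n → ℝ) (hv : ∑ i, v i * v i = 1)
    (hvw : ∑ i, v i * w i = 0) (hw : w ≠ 0) :
    0 < ∑ l, ∑ i, ∑ j, ∑ k, v i * w j * v k * Rf g f i j k l * w l := by
  set x := f.pt with hx
  have hs : f.pt ∈ (chartAt (EV n) x).source := mem_chart_source _ _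
  set u := chartAt (EV n) x x with hu
  have htg : u ∈ (chartAt (EV n) x).target := mem_chart_target _ _
  set V : EV n := ∑ i, v i • f.e i with hV
  set W : EV n := ∑ i, w i • f.e i with hW
  have hin : ∀ s t : Fin n → ℝ, innerB g x (∑ i, s i • f.e i) (∑ i, t i • f.e i) =
      ∑ i, s i * t i := by
    intro s t
    simp only [map_sum, map_smul, sum_apply, smul_apply,
      smul_eq_mul]
    refine Finset.sum_congr rfl fun i _ => ?_
    have h0 : ∀ j, innerB g x (f.e j) (f.e i) = if j = i then (1 : ℝ) else 0 := fun j => by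
      exact f.inner_e j i
    rw [Finset.sum_eq_single i]
    · rw [h0, if_pos rfl]; ring
    · intro j _ hj
      rw [h0, if_neg hj]; ring
    · simp
  have hVV : innerB g x V V = 1 := (hin v v).trans hv
  have hVW : innerB g x V W = 0 := (hin v w).trans hvw
  have hWW : innerB g x W W ≠ 0 := by
    rw [hin w w]
    intro h0
    refine hw (funext fun i => ?_)
    have h1 := (Finset.sum_eq_zero_iff_of_nonneg (fun i _ => mul_self_nonneg (w i))).1 h0 i
      (Finset.mem_univ i)
    exact mul_self_eq_zero.1 h1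
  have hli := linearIndependent_of_orth g x hVV hVW hWW
  have hli' : LinearIndependent ℝ ![W, V] := by
    rw [LinearIndependent.pair_iff] at hli ⊢
    intro s t h0
    have := hli t s (by rw [add_comm]; exact h0)
    exact ⟨this.2, this.1⟩
  have h1 := hN x u htg W V hli'
  rw [riem_mt g x htg] at h1
  have h2 : (mt g).coef x u (curvT ((mt g).coef x) u W V V) W < 0 := h1
  have hm := (mt g).isMetricOn x
  have h3 : (mt g).coef x u (curvT ((mt g).coef x) u V W V) W =
      -(mt g).coef x u (curvT ((mt g).coef x) u W V V) W := by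
    rw [curvT_anti hm htg V W V]; simp
  have h4 : (mt g).coef x u (curvT ((mt g).coef x) u V W V) W =
      ∑ l, ∑ i, ∑ j, ∑ k, v i * w j * v k * Rf g f i j k l * w l := by
    have e : ∀ i j k l, Rf g f i j k l = (mt g).coef x u
        (curvT ((mt g).coef x) u (f.e i) (f.e j) (f.e k)) (f.e l) := fun i j k l => rfl
    have key : ∀ (G : EV n →L[ℝ] EV n →L[ℝ] ℝ) (R : EV n →L[ℝ] EV n →L[ℝ] EV n →L[ℝ] EV n)
        (e : Fin n → EV n), G (R (∑ i, v i • e i) (∑ i, w i • e i) (∑ i, v i • e i))
          (∑ i, w i • e i) =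
          ∑ l, ∑ i, ∑ j, ∑ k, v i * w j * v k * G (R (e i) (e j) (e k)) (e l) * w l := by
      intro G R e
      have k4 : ∀ z, G z (∑ a, w a • e a) = ∑ d, w d * G z (e d) := fun z => by
        simp only [map_sum, map_smul, smul_eq_mul]
      have k3 : ∀ x y z, G (R x y (∑ a, v a • e a)) z = ∑ c, v c * G (R x y (e c)) z :=
        fun x y z => by simp only [map_sum, map_smul, sum_apply, smul_apply, smul_eq_mul]
      have k2 : ∀ x y z, G (R x (∑ a, w a • e a) y) z = ∑ c, w c * G (R x (e c) y) z :=
        fun x y z => by simp only [map_sum, map_smul, sum_apply, smul_apply, smul_eq_mul]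
      have k1 : ∀ x y z, G (R (∑ a, v a • e a) x y) z = ∑ c, v c * G (R (e c) x y) z :=
        fun x y z => by simp only [map_sum, map_smul, sum_apply, smul_apply, smul_eq_mul]
      rw [k4]
      refine Finset.sum_congr rfl fun l _ => ?_
      rw [k1, Finset.mul_sum]
      refine Finset.sum_congr rfl fun i _ => ?_
      rw [k2, Finset.mul_sum, Finset.mul_sum]
      refine Finset.sum_congr rfl fun j _ => ?_
      rw [k3, Finset.mul_sum, Finset.mul_sum, Finset.mul_sum]
      refine Finset.sum_congr rfl fun k _ => ?_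
      ring
    rw [hV, hW, key]
    rfl
  rw [← h4, h3]
  linarith

/-- **the curvature components in every frame** -/
theorem cct (hL : LocSymmetric g) (hN : NegCurvature g) (f : Fr g) : CCT (Rf g f) := by
  have hs : f.pt ∈ (chartAt (EV n) f.pt).source := mem_chart_source _ _
  have htg : (chF f.pt f.1).1 ∈ (chartAt (EV n) f.pt).target :=
    (chartAt (EV n) f.pt).map_source hs
  have hm := (mt g).isMetricOn f.pt
  have hR : ∀ i j k l, Rf g f i j k l = RR ((mt g).coef f.pt) i j k l (chF f.pt f.1) :=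
    fun i j k l => Rf_eq f i j k l hs
  refine ⟨fun i j k l => ?_, fun i j k l => ?_, fun i j k l => ?_, Rf_der hL f, Rf_neg hN f⟩
  · rw [hR, hR, RR_anti hm htg]
  · rw [hR, hR, RR_skew hm htg]
  · rw [hR, hR, hR, RR_bianchi1 hm htg]

section Transport

variable [NeZero n] [CompactSpace M] [T2Space M] [ConnectedSpace M]

/-- every frame is transported to every point, with the same curvature components -/
theorem exists_transport (hL : LocSymmetric g) (hN : NegCurvature g) (f₀ : Fr g) (x : M) :
    ∃ f : Fr g, f.pt = x ∧ ∀ i j k l, Rf g f i j k l = Rf g f₀ i j k l := by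
  have hne : Nonempty (Fr g) := ⟨f₀⟩
  -- a geodesic to `x`
  obtain ⟨v, hv⟩ : ∃ v : EV n, expg (mt g) f₀.pt v = x := by
    have h1 : LocallyPathConnectedSpace M := ChartedSpace.locallyPathConnectedSpace (EV n) M
    have h2 : PathConnectedSpace M := pathConnectedSpace_iff_connectedSpace.2 inferInstance
    exact ⟨_, (sys g (npc_of_neg hN)).e_vec
      (Path.Homotopic.Quotient.mk (PathConnectedSpace.somePath f₀.pt x))⟩
  by_cases hv0 : v = 0
  · refine ⟨f₀, ?_, fun i j k l => rfl⟩
    rw [← hv, hv0]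
    exact ((sys g (npc_of_neg hN)).zero f₀.pt).symm
  have hpos : 0 < innerB g f₀.pt v v := g.pos f₀.pt v hv0
  set r := Real.sqrt (innerB g f₀.pt v v) with hr
  have hr0 : 0 < r := Real.sqrt_pos.2 hpos
  have hr2 : r * r = innerB g f₀.pt v v := Real.mul_self_sqrt hpos.le
  -- the unit vector
  have hunit : innerB g f₀.pt (r⁻¹ • v) (r⁻¹ • v) = 1 := by
    have h1 : innerB g f₀.pt (r⁻¹ • v) (r⁻¹ • v) = r⁻¹ * (r⁻¹ * innerB g f₀.pt v v) := by
      simp only [map_smul, smul_apply, smul_eq_mul]
    rw [h1, ← hr2]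
    field_simp
  obtain ⟨f₁, hf₁⟩ := exists_frame_ut (g := g) ⟨⟨f₀.pt, r⁻¹ • v⟩, hunit⟩
  have hpt : f₁.pt = f₀.pt := congrArg (fun p : UT g => p.pt) hf₁
  have he : f₁.e 0 = r⁻¹ • v := by
    obtain ⟨⟨x₁, e₁⟩, h₁⟩ := f₁
    change x₁ = f₀.pt at hpt
    subst hpt
    have h2 := congrArg Subtype.val hf₁
    have h3 := eq_of_heq (Bundle.TotalSpace.mk.inj h2).2
    exact h3
  obtain ⟨A, hA⟩ := Fr.exists_rot (g := g) hpt.symm
  set Φ := Fl.CSys.flow (horVF g (Pi.single (0 : Fin n) 1)) with hΦ
  have hflow : IsHorFlow g (Pi.single (0 : Fin n) 1) Φ := isHorFlow_flow g _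
  have hpt2 : (Φ r f₁).pt = x := by
    rw [hflow.pt_eq, he, ← P255.expg_smul, smul_smul, mul_inv_cancel₀ hr0.ne', one_smul, hpt]
    exact hv
  refine ⟨Fr.rot A⁻¹ (Φ r f₁), hpt2, fun i j k l => ?_⟩
  have h4 : ∀ i j k l, Rf g (Φ r f₁) i j k l = Rf g f₁ i j k l := fun i j k l =>
    Rf_flow hL hflow f₁ i j k l r
  have h5 : Rf g (Fr.rot A⁻¹ (Φ r f₁)) i j k l = Rf g (Fr.rot A⁻¹ f₁) i j k l := by
    rw [Rf_rot, Rf_rot]
    simp only [h4]
  rw [h5, ← hA, Fr.rot_rot, mul_inv_cancel, Fr.rot_one]

end Transport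

end Vale.Agent.P207.H747
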