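import Vale.Agent.P207.H747.Fr2

/-!
# P207: traces, the projection onto `E4`, and the leaf identity, in components
-/

open scoped RealInnerProductSpace
open Module

noncomputable section

namespace Vale.Agent.P207.H747

namespace ACT

set_option linter.unusedSectionVars false

variable {V : Type*} [NormedAddCommGroup V] [InnerProductSpace ℝ V] [FiniteDimensional ℝ V]
variable {S : ACT V} {v x x' y y' u w z : V}

/-- the projection onto the eigenspace of `4` as a linear map -/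
def Pm (S : ACT V) (v : V) : V →ₗ[ℝ] V where
  toFun z := (1 / 3 : ℝ) • (S.K v z - z + ⟪z, v⟫ • v)
  map_add' z z' := by
    rw [map_add, inner_add_left]
    module
  map_smul' c z := by
    rw [map_smul, inner_smul_left, RingHom.id_apply]
    simp only [conj_trivial]
    module

theorem Pm_apply (z : V) : S.Pm v z = (1 / 3 : ℝ) • (S.K v z - z + ⟪z, v⟫ • v) := rfl

theorem Nrm.Pm_eq (h : S.Nrm 2) (hv : ‖v‖ = 1) (z : V) : S.Pm v z = pr2 S 2 v z := by
  have h1 := h.decomp hv z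
  have h2 := h.K_pr1 hv z
  have h3 := h.K_pr2 hv z
  have h4 : S.K v z = pr1 S 2 v z + (4 : ℝ) • pr2 S 2 v z := by
    conv_lhs => rw [h1]
    rw [map_add, map_add, map_smul, S.K_self, smul_zero, zero_add, h2, h3]
    norm_num
  rw [Pm_apply, h4]
  have h5 : pr1 S 2 v z = z - ⟪z, v⟫ • v - pr2 S 2 v z := by
    nth_rewrite 2 [h1]
    abel
  rw [h5]
  module

theorem Nrm.K_Pm (h : S.Nrm 2) (hv : ‖v‖ = 1) (z : V) :
    S.K v (S.Pm v z) = (4 : ℝ) • S.Pm v z := by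
  rw [h.Pm_eq hv, h.K_pr2 hv]
  norm_num

theorem Pm_E4 (hy : S.K v y = (4 : ℝ) • y) : S.Pm v y = y := by
  have h1 : ⟪y, v⟫ = 0 := orth_of_eig (by norm_num : (4 : ℝ) ≠ 0) hy
  rw [Pm_apply, hy, h1]
  module

theorem Nrm.Pm_Pm (h : S.Nrm 2) (hv : ‖v‖ = 1) (z : V) : S.Pm v (S.Pm v z) = S.Pm v z :=
  Pm_E4 (h.K_Pm hv z)

theorem Nrm.K_sub (h : S.Nrm 2) (hv : ‖v‖ = 1) (z : V) (hz : ⟪z, v⟫ = 0) :
    S.K v (z - S.Pm v z) = z - S.Pm v z := by
  have h1 : S.K v z = z + (3 : ℝ) • S.Pm v z := by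
    rw [Pm_apply, hz]
    module
  rw [map_sub, h.K_Pm hv, h1]
  module

theorem Nrm.trace_K (h : S.Nrm 2) (hv : ‖v‖ = 1) {ι : Type*} [Fintype ι]
    (e : OrthonormalBasis ι ℝ V) :
    ∑ i, ⟪S.K v (e i), e i⟫ = (finrank ℝ V : ℝ) - 1 +
      3 * (finrank ℝ (End.eigenspace (S.K v) 4) : ℝ) := by
  have hp : LinearMap.IsProj (End.eigenspace (S.K v) 4) (S.Pm v) :=
    ⟨fun z => End.mem_eigenspace_iff.2 (h.K_Pm hv z),
      fun z hz => Pm_E4 (End.mem_eigenspace_iff.1 hz)⟩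
  have h1 : LinearMap.trace ℝ V (S.Pm v) = (finrank ℝ (End.eigenspace (S.K v) 4) : ℝ) := by
    exact hp.trace
  have h2 := LinearMap.trace_eq_sum_inner (S.Pm v) e
  rw [h1] at h2
  have h3 : ∀ i, ⟪S.K v (e i), e i⟫ = 3 * ⟪e i, S.Pm v (e i)⟫ + 1 - ⟪e i, v⟫ * ⟪v, e i⟫ := by
    intro i
    rw [Pm_apply, inner_smul_right, inner_add_right, inner_sub_right, inner_smul_right,
      real_inner_comm (e i) (S.K v (e i)), real_inner_comm (e i) v,
      inner_self_one (e.orthonormal.1 i)]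
    ring
  rw [Finset.sum_congr rfl fun i _ => h3 i, Finset.sum_sub_distrib, Finset.sum_add_distrib,
    ← Finset.mul_sum, ← h2]
  have h4 : ∑ i, ⟪e i, v⟫ * ⟪v, e i⟫ = 1 := by
    rw [← inner_self_one hv, ← e.sum_inner_mul_inner v v]
    exact Finset.sum_congr rfl fun i _ => mul_comm _ _
  rw [h4, Finset.sum_const, Finset.card_univ, ← finrank_eq_card_basis e.toBasis]
  simp
  ring

/-- **the Ricci tensor** -/
theorem Nrm.ric (h : S.Nrm 2) {d : ℕ}
    (hd : ∀ v : V, ‖v‖ = 1 → finrank ℝ (End.eigenspace (S.K v) 4) = d)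
    {ι : Type*} [Fintype ι] (e : OrthonormalBasis ι ℝ V) (u w : V) :
    ∑ i, ⟪S.R u (e i) w, e i⟫ = ((finrank ℝ V : ℝ) - 1 + 3 * d) * ⟪u, w⟫ := by
  have h1 : ∀ u : V, ∑ i, ⟪S.R u (e i) u, e i⟫ = ((finrank ℝ V : ℝ) - 1 + 3 * d) * ⟪u, u⟫ := by
    intro u
    rcases eq_or_ne u 0 with rfl | hu
    · simp
    have hn : ‖u‖ ≠ 0 := norm_ne_zero_iff.2 hu
    have hu1 : ‖(‖u‖⁻¹ • u)‖ = 1 := by
      rw [norm_smul, norm_inv, norm_norm, inv_mul_cancel₀ hn]
    have h2 := h.trace_K hu1 e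
    rw [hd _ hu1] at h2
    rw [← h2, Finset.sum_mul]
    refine Finset.sum_congr rfl fun i _ => ?_
    rw [K_apply, real_inner_self_eq_norm_sq]
    simp only [map_smul, LinearMap.smul_apply, inner_smul_left, conj_trivial]
    field_simp
  have h2 := h1 (u + w)
  have h3 : ∀ i, ⟪S.R (u + w) (e i) (u + w), e i⟫ = ⟪S.R u (e i) u, e i⟫ +
      ⟪S.R w (e i) w, e i⟫ + 2 * ⟪S.R u (e i) w, e i⟫ := by
    intro i
    simp only [map_add, LinearMap.add_apply, inner_add_left]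
    rw [S.pair w (e i) u (e i)]
    ring
  rw [Finset.sum_congr rfl fun i _ => h3 i, Finset.sum_add_distrib, Finset.sum_add_distrib,
    ← Finset.mul_sum, h1 u, h1 w] at h2
  simp only [inner_add_left, inner_add_right] at h2
  rw [real_inner_comm u w] at h2
  linarith

/-- **the leaf identity** -/
theorem Nrm.leaf_id (h : S.Nrm 2) (hv : ‖v‖ = 1) (hy : S.K v y = (4 : ℝ) • y)
    {x x' : V} (hx : ⟪x, v⟫ = 0) (hx' : ⟪x', v⟫ = 0) :
    ⟪S.R v x y, x'⟫ + ⟪S.R v x' y, x⟫ = 0 := by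
  have h1 : ∀ x : V, ⟪x, v⟫ = 0 → ⟪S.R v x y, x⟫ = 0 := by
    intro x hx
    have hyv : ⟪y, v⟫ = 0 := orth_of_eig (by norm_num : (4 : ℝ) ≠ 0) hy
    set p := S.Pm v x with hp
    set q := x - p with hq
    have hpK : S.K v p = (4 : ℝ) • p := h.K_Pm hv x
    have hqK : S.K v q = q := h.K_sub hv x hx
    have hx1 : x = q + p := by rw [hq]; abel
    have hqy : ∀ q' : V, S.K v q' = q' → ⟪q', y⟫ = 0 := fun q' hq' => inner_E1_E4 hq' hy
    rw [S.skew, neg_eq_zero, real_inner_comm, hx1]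
    simp only [map_add, LinearMap.add_apply, inner_add_left]
    rw [h.rho_yy hv hpK hpK, h.rho_xy hv hqK hpK, inner_smul_left, inner_smul_left,
      hqy _ (h.K_rho_yx hv hqK hpK)]
    have h2 : S.R v q q = -((1 : ℝ) ^ 2 * ⟪q, q⟫) • v :=
      rho_self (inner_self_one hv) one_ne_zero (e1 hqK)
    rw [h2, inner_smul_left, real_inner_comm y v, hyv]
    simp
  have h2 := h1 (x + x') (by rw [inner_add_left, hx, hx', add_zero])
  have h3 := h1 x hx
  have h4 := h1 x' hx'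
  simp only [map_add, LinearMap.add_apply, inner_add_left, inner_add_right] at h2
  linarith

/-! ### components -/

theorem Nrm.comp_ric {n : ℕ} {S : ACT (En n)} (h : S.Nrm 2) {d : ℕ}
    (hd : ∀ v : En n, ‖v‖ = 1 → finrank ℝ (End.eigenspace (S.K v) 4) = d)
    {r : Fin n → Fin n → Fin n → Fin n → ℝ}
    (hr : ∀ i j k l, S.R (ee i) (ee j) (ee k) l = r i j k l) (i j : Fin n) :
    ∑ k, r i k k j = - if i = j then ((n : ℝ) - 1 + 3 * d) else 0 := by
  have h1 := h.ric hd (EuclideanSpace.basisFun (Fin n) ℝ) (ee i) (ee j)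
  have h2 : ∀ k, ⟪S.R (ee i) (EuclideanSpace.basisFun (Fin n) ℝ k) (ee j),
      EuclideanSpace.basisFun (Fin n) ℝ k⟫ = - r i k k j := by
    intro k
    rw [EuclideanSpace.basisFun_apply, S.skew, real_inner_comm, inner_ee, hr]
  rw [Finset.sum_congr rfl fun k _ => h2 k, Finset.sum_neg_distrib] at h1
  rw [neg_eq_iff_eq_neg] at h1
  rw [h1]
  congr 1
  rw [finrank_euclideanSpace, Fintype.card_fin, inner_ee]
  simp only [ee, PiLp.single_apply]
  by_cases hij : i = j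
  · simp [hij]
  · simp [hij, Ne.symm hij]

variable {m d : ℕ} {S : ACT (En (m + 1))} {r : Fin (m + 1) → Fin (m + 1) → Fin (m + 1) →
  Fin (m + 1) → ℝ}

/-- components of the projection on `E4 e₀` -/
def Pr (r : Fin (m + 1) → Fin (m + 1) → Fin (m + 1) → Fin (m + 1) → ℝ) (i j : Fin m) : ℝ :=
  (1 / 3) * (r 0 i.succ 0 j.succ - if i = j then 1 else 0)

theorem nrm_ee {n : ℕ} (i : Fin n) : ‖(ee i : En n)‖ = 1 := by simp

theorem inner_ee_ee {n : ℕ} (i j : Fin n) : ⟪(ee i : En n), ee j⟫ = if j = i then 1 else 0 := by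
  rw [inner_ee]
  simp [ee]

theorem Pm_ee (hr : ∀ i j k l, S.R (ee i) (ee j) (ee k) l = r i j k l) (i j : Fin m) :
    S.Pm (ee 0) (ee i.succ) j.succ = Pr r i j := by
  rw [Pm_apply, inner_ee_ee, if_neg (Fin.succ_ne_zero i).symm, Pr, ← hr]
  simp [K_apply, eq_comm]

theorem Pm_ee_zero (h : S.Nrm 2) (i : Fin m) : S.Pm (ee 0) (ee i.succ) 0 = 0 := by
  rw [← inner_ee]
  exact orth_of_eig (by norm_num : (4 : ℝ) ≠ 0) (h.K_Pm (nrm_ee 0) _)

theorem Pm_ee_sum (h : S.Nrm 2) (hr : ∀ i j k l, S.R (ee i) (ee j) (ee k) l = r i j k l)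
    (i : Fin m) : S.Pm (ee 0) (ee i.succ) = ∑ j : Fin m, Pr r i j • ee j.succ := by
  conv_lhs => rw [en_sum (S.Pm (ee 0) (ee i.succ))]
  rw [Fin.sum_univ_succ, Pm_ee_zero h, zero_smul, zero_add]
  exact Finset.sum_congr rfl fun j _ => by rw [Pm_ee hr]

theorem Nrm.comp_idem (h : S.Nrm 2) (hr : ∀ i j k l, S.R (ee i) (ee j) (ee k) l = r i j k l)
    (i k : Fin m) : ∑ j, Pr r i j * Pr r j k = Pr r i k := by
  have h1 := h.Pm_Pm (nrm_ee 0) (ee i.succ)
  have h3 : S.Pm (ee 0) (S.Pm (ee 0) (ee i.succ)) =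
      ∑ j : Fin m, Pr r i j • S.Pm (ee 0) (ee j.succ) := by
    conv_lhs => rw [Pm_ee_sum h hr, map_sum]
    exact Finset.sum_congr rfl fun j _ => map_smul _ _ _
  rw [h3] at h1
  have h2 := congrArg (fun z : En (m + 1) => ⟪z, ee k.succ⟫) h1
  simp only [sum_inner, inner_smul_left, conj_trivial, inner_ee, Pm_ee hr] at h2
  exact h2

theorem Nrm.comp_leaf (h : S.Nrm 2) (hr : ∀ i j k l, S.R (ee i) (ee j) (ee k) l = r i j k l)
    (l i j : Fin m) : ∑ k, Pr r l k * (r 0 i.succ k.succ j.succ + r 0 j.succ k.succ i.succ)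
      = 0 := by
  have hz : ∀ i : Fin m, ⟪(ee i.succ : En (m + 1)), ee 0⟫ = 0 := by
    intro i
    rw [inner_ee_ee, if_neg (Fin.succ_ne_zero i).symm]
  have h1 := h.leaf_id (nrm_ee 0) (h.K_Pm (nrm_ee 0) (ee l.succ)) (hz i) (hz j)
  rw [Pm_ee_sum h hr, map_sum, map_sum, sum_inner, sum_inner] at h1
  simp only [map_smul, inner_smul_left, conj_trivial, inner_ee, hr] at h1
  rw [← h1, ← Finset.sum_add_distrib]
  exact Finset.sum_congr rfl fun k _ => by ring

variable (r) in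
/-- the pointwise facts in components -/
structure RkP (d : ℕ) : Prop where
  ric : ∀ i j, ∑ k, r i k k j = - if i = j then ((m : ℝ) + 3 * d) else 0
  idem : ∀ i k, ∑ j, Pr r i j * Pr r j k = Pr r i k
  leaf : ∀ l i j : Fin m,
    ∑ k, Pr r l k * (r 0 i.succ k.succ j.succ + r 0 j.succ k.succ i.succ) = 0

theorem Nrm.rkP (h : S.Nrm 2) (hd : ∀ v : En (m + 1), ‖v‖ = 1 →
    finrank ℝ (End.eigenspace (S.K v) 4) = d)
    (hr : ∀ i j k l, S.R (ee i) (ee j) (ee k) l = r i j k l) : RkP r d where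
  ric i j := by
    rw [h.comp_ric hd hr]
    push_cast
    rw [add_sub_cancel_right]
  idem := h.comp_idem hr
  leaf := h.comp_leaf hr

end ACT

/-! ### the metric -/

open Vale.Agent.P255 (RMetric)
open Vale.Agent.P207 Vale.Agent.P207.Q Vale.Agent.P207.Q.H892
  Vale.Agent.P207.Q.H545 Vale.Agent.P207.Q.H130
open scoped Manifold ContDiff

section

variable {n : ℕ} {M : Type} [TopologicalSpace M] [ChartedSpace (EV n) M]
  [IsManifold 𝓘(ℝ, EV n) ∞ M] {g : RMetric (EV n) M}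
variable [NeZero n] [CompactSpace M] [T2Space M] [ConnectedSpace M]

/-- **the normalised curvature tensors of all frames** -/
theorem exists_rank_one_two (hn : 2 ≤ n) (hL : LocSymmetric g) (hN : NegCurvature g) :
    ∃ (b : ℝ) (d : ℕ), 0 < b ∧ 1 ≤ d ∧ d + 1 ≤ n ∧ ∀ f : Fr g, ∃ S : ACT (En n), S.Nrm 2 ∧
      (∀ i j k l, S.R (ee i) (ee j) (ee k) l = 4 / b ^ 2 * Rf g f i j k l) ∧
      ∀ v : En n, ‖v‖ = 1 → finrank ℝ (End.eigenspace (S.K v) 4) = d := by
  obtain ⟨b, d, hb, H⟩ := exists_rank_one hn hL hN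
  have hc : 0 < 4 / b ^ 2 := by positivity
  have key : ∀ f : Fr g, ∃ S : ACT (En n), S.Nrm 2 ∧
      (∀ i j k l, S.R (ee i) (ee j) (ee k) l = 4 / b ^ 2 * Rf g f i j k l) ∧
      ∀ v : En n, ‖v‖ = 1 → finrank ℝ (End.eigenspace (S.K v) 4) = d := by
    intro f
    obtain ⟨h1, h2⟩ := H f
    refine ⟨(act hL hN f).scale (4 / b ^ 2) hc, h1.two, fun i j k l => ?_, fun v hv => ?_⟩
    · rw [ACT.scale_R, PiLp.smul_apply, act_R, smul_eq_mul]
    · rw [← h2 v hv]
      have h3 : End.eigenspace (((act hL hN f).scale (4 / b ^ 2) hc).K v) 4 =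
          End.eigenspace ((act hL hN f).K v) (b ^ 2) := by
        ext z
        rw [End.mem_eigenspace_iff, End.mem_eigenspace_iff, ACT.scale_K]
        constructor
        · intro h4
          have h5 := congrArg (fun t => (b ^ 2 / 4) • t) h4
          simp only [smul_smul] at h5
          rw [div_mul_div_cancel₀ (by norm_num), div_self (by positivity), one_smul,
            div_mul_cancel₀ _ (by norm_num)] at h5
          exact h5
        · intro h4
          rw [h4, smul_smul, div_mul_cancel₀ _ (by positivity)]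
      rw [h3]
  obtain ⟨x⟩ : Nonempty M := inferInstance
  obtain ⟨f₀, -⟩ := exists_frame g x
  obtain ⟨S, h1, h2, h3⟩ := key f₀
  set v₀ : En n := ee ⟨0, by omega⟩ with hv₀
  have hv₀1 : ‖v₀‖ = 1 := by rw [hv₀]; simp
  have h4 := h3 v₀ hv₀1
  refine ⟨b, d, hb, ?_, ?_, key⟩
  · obtain ⟨y, hy0, hy⟩ := h1.att v₀ hv₀1
    rw [← h4]
    refine Nat.one_le_iff_ne_zero.2 fun h5 => hy0 ?_
    have h6 : y ∈ End.eigenspace (S.K v₀) 4 := by
      rw [End.mem_eigenspace_iff, hy]; norm_num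
    rw [Submodule.finrank_eq_zero.1 h5] at h6
    exact (Submodule.mem_bot ℝ).1 h6
  · have h5 : End.eigenspace (S.K v₀) 4 ≠ ⊤ := by
      intro h6
      have h7 : v₀ ∈ End.eigenspace (S.K v₀) 4 := by rw [h6]; trivial
      rw [End.mem_eigenspace_iff, S.K_self] at h7
      have h8 : v₀ = 0 := by
        have := congrArg (fun t => (1 / 4 : ℝ) • t) h7
        simpa [smul_smul] using this.symm
      rw [h8, norm_zero] at hv₀1
      exact zero_ne_one hv₀1
    have h6 := Submodule.finrank_lt h5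
    rw [h4, finrank_euclideanSpace, Fintype.card_fin] at h6
    omega

end

section

variable {m : ℕ} {M : Type} [TopologicalSpace M] [ChartedSpace (EV (m + 1)) M]
  [IsManifold 𝓘(ℝ, EV (m + 1)) ∞ M] {g : RMetric (EV (m + 1)) M}
variable [CompactSpace M] [T2Space M] [ConnectedSpace M]

/-- **the pointwise facts for all frames**, in components -/
theorem exists_rkP (hm : 1 ≤ m) (hL : LocSymmetric g) (hN : NegCurvature g) :
    ∃ (b : ℝ) (d : ℕ), 0 < b ∧ 1 ≤ d ∧ d ≤ m ∧ ∀ f : Fr g,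
      ACT.RkP (fun i j k l => 4 / b ^ 2 * Rf g f i j k l) d := by
  obtain ⟨b, d, hb, h1, h2, H⟩ := exists_rank_one_two (by omega) hL hN
  refine ⟨b, d, hb, h1, by omega, fun f => ?_⟩
  obtain ⟨S, h3, h4, h5⟩ := H f
  exact h3.rkP h5 h4

end

end Vale.Agent.P207.H747
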