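import Vale.Agent.P207.H747.Tr

/-!
# P207: the coordinates of a frame; the type condition in a chart
-/

open scoped Manifold ContDiff ENNReal Topology RealInnerProductSpace
open Bundle MeasureTheory Set Filter Module

set_option maxSynthPendingDepth 3
set_option linter.unusedSectionVars false

noncomputable section

namespace Vale.Agent.P207.H747

open Vale.Agent.P255 (RMetric coefIn Gam Riem IsGeo Metric trans coefL expg geo Npc chris chrisB
  IsMetricOn)
open Vale.Agent.P207 Vale.Agent.P207.D1 Vale.Agent.P207.Q Vale.Agent.P207.Q.H892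
  Vale.Agent.P207.Q.H545 Vale.Agent.P207.Q.H717 Vale.Agent.P207.Q.H130

/-! ### coordinates -/

section Co

variable {n : ℕ} (G : EV n →L[ℝ] EV n →L[ℝ] ℝ) (E : Fin n → EV n)

/-- the coordinates in an orthonormal frame -/
def co : EV n →ₗ[ℝ] En n where
  toFun z := WithLp.toLp 2 fun i => G z (E i)
  map_add' z z' := by
    ext i
    simp
  map_smul' c z := by
    ext i
    simp

theorem co_apply (z : EV n) (i : Fin n) : co G E z i = G z (E i) := rfl

theorem co_inj (hE : ∀ z, ∑ b, G z (E b) • E b = z) : Function.Injective (co G E) := by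
  rw [injective_iff_map_eq_zero]
  intro z hz
  rw [← hE z]
  refine Finset.sum_eq_zero fun b _ => ?_
  have := congrArg (fun w : En n => w b) hz
  rw [co_apply] at this
  rw [this]
  simp

/-- the curvature in coordinates -/
theorem co_R (hE : ∀ z, ∑ b, G z (E b) • E b = z)
    (R : EV n →L[ℝ] EV n →L[ℝ] EV n →L[ℝ] EV n) (r : Fin n → Fin n → Fin n → Fin n → ℝ)
    (hr : ∀ i j k l, r i j k l = G (R (E i) (E j) (E k)) (E l)) (x y z : EV n) :
    co G E (R x y z) = Rmap r (co G E x) (co G E y) (co G E z) := by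
  ext l
  rw [Rmap_apply, co_apply]
  conv_lhs => rw [← hE x, ← hE y, ← hE z]
  simp only [map_sum, map_smul, sum_apply, smul_apply, smul_eq_mul, co_apply, Finset.mul_sum]
  rw [Finset.sum_congr rfl fun k _ => Finset.sum_comm, Finset.sum_comm]
  refine Finset.sum_congr rfl fun i _ => ?_
  rw [Finset.sum_comm]
  refine Finset.sum_congr rfl fun j _ => Finset.sum_congr rfl fun k _ => ?_
  rw [hr]
  ring

end Co

variable {n : ℕ} {M : Type} [TopologicalSpace M] [ChartedSpace (EV n) M]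
  [IsManifold 𝓘(ℝ, EV n) ∞ M] {g : RMetric (EV n) M}

/-- coordinates in the chart `a` of a vector, in the frame `f` -/
theorem exists_co (hL : LocSymmetric g) (hN : NegCurvature g) (a : M) {u : EV n}
    (hu : u ∈ (chartAt (EV n) a).target) :
    ∃ (f : Fr g) (T : EV n →ₗ[ℝ] En n), f.pt = (chartAt (EV n) a).symm u ∧
      Function.Injective T ∧
      ∀ x y z, T (Riem (coefIn g a) u x y z) = (act hL hN f).R (T x) (T y) (T z) := by
  obtain ⟨f, hf⟩ := exists_frame g ((chartAt (EV n) a).symm u)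
  have ha : f.pt ∈ (chartAt (EV n) a).source := by
    rw [hf]; exact (chartAt (EV n) a).map_target hu
  have hm := (mt g).isMetricOn a
  have h1 : (chF a f.1).1 = u := by
    change chartAt (EV n) a f.pt = u
    rw [hf]; exact (chartAt (EV n) a).right_inv hu
  have ho : ∀ b c, (mt g).coef a (chF a f.1).1 ((chF a f.1).2 b) ((chF a f.1).2 c) =
      if b = c then (1 : ℝ) else 0 := fun b c => (inner_chF g a ha b c).trans (f.2 b c)
  have hE := Brk.sum_orth hm (p := chF a f.1) (by rw [h1]; exact hu) (by simp) ho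
  refine ⟨f, co ((mt g).coef a (chF a f.1).1) (chF a f.1).2, hf, co_inj _ _ hE, fun x y z => ?_⟩
  have h2 := co_R ((mt g).coef a (chF a f.1).1) (chF a f.1).2 hE
    (curvT ((mt g).coef a) (chF a f.1).1) (Rf g f) (fun i j k l => Rf_eq f i j k l ha) x y z
  rw [riem_mt g a hu, act_R_eq, ← h2, h1]

namespace ACT

variable {V : Type*} [NormedAddCommGroup V] [InnerProductSpace ℝ V] [FiniteDimensional ℝ V]
variable {S : ACT V}

/-- a Jacobi operator with the eigenvalues `4 κ` and `κ` -/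
theorem Nrm.type {b : ℝ} (h : S.Nrm b) {κ : ℝ} (hκ : 0 < κ) {v w₁ w₂ w₃ : V}
    (hl : LinearIndependent ℝ ![w₁, w₂]) (hw₃ : w₃ ≠ 0) (h1 : S.K v w₁ = (4 * κ) • w₁)
    (h2 : S.K v w₂ = (4 * κ) • w₂) (h3 : S.K v w₃ = κ • w₃) :
    ∃ v' : V, ‖v'‖ = 1 ∧ 2 ≤ finrank ℝ (End.eigenspace (S.K v') (b ^ 2)) ∧
      S.K v' w₃ = (b ^ 2 / 4) • w₃ := by
  have hw₁ : w₁ ≠ 0 := hl.ne_zero 0
  have hv0 : v ≠ 0 := by
    rintro rfl
    have h4 : κ • w₃ = 0 := by rw [← h3, K_apply]; simp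
    exact (smul_ne_zero hκ.ne' hw₃) h4
  have hn : 0 < ‖v‖ := norm_pos_iff.2 hv0
  set v' := ‖v‖⁻¹ • v with hv'
  have hv1 : ‖v'‖ = 1 := by rw [hv', norm_smul, norm_inv, norm_norm, inv_mul_cancel₀ hn.ne']
  have hK : ∀ (c : ℝ) (w : V), S.K v w = c • w → S.K v' w = (c / ‖v‖ ^ 2) • w := by
    intro c w hw
    rw [K_apply] at hw ⊢
    rw [hv']
    simp only [map_smul, LinearMap.smul_apply, hw, smul_smul]
    congr 1
    field_simp
  have k1 := hK _ _ h1
  have k2 := hK _ _ h2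
  have k3 := hK _ _ h3
  have hb2 : 0 < b ^ 2 := pow_pos h.pos 2
  have p1 : 0 < κ / ‖v‖ ^ 2 := by positivity
  have e4 : 4 * κ / ‖v‖ ^ 2 = 4 * (κ / ‖v‖ ^ 2) := by ring
  have s1 := h.spec hv1 k1 hw₁
  have s3 := h.spec hv1 k3 hw₃
  rw [e4] at s1
  have e1 : κ / ‖v‖ ^ 2 = b ^ 2 / 4 := by
    rcases s1 with s1 | s1 | s1 <;> rcases s3 with s3 | s3 | s3 <;> nlinarith
  rw [e4, e1, mul_div_cancel₀ _ (by norm_num : (4 : ℝ) ≠ 0)] at k1 k2
  rw [e1] at k3
  refine ⟨v', hv1, ?_, k3⟩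
  have hmem : ∀ i : Fin 2, (![w₁, w₂] : Fin 2 → V) i ∈ End.eigenspace (S.K v') (b ^ 2) := by
    intro i
    rw [End.mem_eigenspace_iff]
    fin_cases i
    · exact k1
    · exact k2
  have hli : LinearIndependent ℝ
      (fun i : Fin 2 => (⟨(![w₁, w₂] : Fin 2 → V) i, hmem i⟩ : End.eigenspace (S.K v') (b ^ 2))) := by
    apply LinearIndependent.of_comp (Submodule.subtype _)
    exact hl
  simpa using hli.fintype_card_le_finrank

end ACT

section

variable [NeZero n] [CompactSpace M] [T2Space M] [ConnectedSpace M]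

/-- one Jacobi operator with the eigenvalues `-4κ` (twice) and `-κ` in a chart -/
theorem exists_of_riem (hn : 2 ≤ n) (hL : LocSymmetric g) (hN : NegCurvature g) (a : M)
    {u : EV n} (hu : u ∈ (chartAt (EV n) a).target) {κ : ℝ} (hκ : 0 < κ) {v w₁ w₂ w₃ : EV n}
    (hl : LinearIndependent ℝ ![w₁, w₂]) (hw₃ : w₃ ≠ 0)
    (h1 : Riem (coefIn g a) u w₁ v v = (-4 * κ) • w₁)
    (h2 : Riem (coefIn g a) u w₂ v v = (-4 * κ) • w₂)
    (h3 : Riem (coefIn g a) u w₃ v v = (-κ) • w₃) :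
    ∃ (b : ℝ) (d : ℕ), 0 < b ∧ 2 ≤ d ∧ d + 1 ≤ n ∧
      (∀ f : Fr g, ∃ S : ACT (En n), S.Nrm 2 ∧
        (∀ i j k l, S.R (ee i) (ee j) (ee k) l = 4 / b ^ 2 * Rf g f i j k l) ∧
        ∀ v : En n, ‖v‖ = 1 → finrank ℝ (End.eigenspace (S.K v) 4) = d) ∧
      ∃ (f : Fr g) (S : ACT (En n)) (v x : En n), S.Nrm 2 ∧
        (∀ i j k l, S.R (ee i) (ee j) (ee k) l = 4 / b ^ 2 * Rf g f i j k l) ∧
        (∀ v : En n, ‖v‖ = 1 → finrank ℝ (End.eigenspace (S.K v) 4) = d) ∧
        ‖v‖ = 1 ∧ x ≠ 0 ∧ S.K v x = x := by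
  obtain ⟨b, d, hb, hd1, hdn, H⟩ := exists_rank_one_two hn hL hN
  obtain ⟨f, T, -, hT, hR⟩ := exists_co hL hN a hu
  obtain ⟨S, s1, s2, s3⟩ := H f
  have hc : 0 < 4 / b ^ 2 := by positivity
  have hS : ∀ x y z, S.R x y z = (4 / b ^ 2) • (act hL hN f).R x y z := by
    intro x y z
    have hb : ∀ i j k, S.R (ee i) (ee j) (ee k) =
        (4 / b ^ 2) • (act hL hN f).R (ee i) (ee j) (ee k) := by
      intro i j k
      ext l
      rw [s2, PiLp.smul_apply, act_R, smul_eq_mul]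
    revert x y z
    refine en_induct ?_ ?_ ?_ ?_
    · intro y z; simp
    · intro x x' hx hx' y z
      simp only [map_add, LinearMap.add_apply, hx, hx', smul_add]
    · intro c x hx y z
      simp only [map_smul, LinearMap.smul_apply, hx, smul_comm c]
    intro i
    refine en_induct ?_ ?_ ?_ ?_
    · intro z; simp
    · intro x x' hx hx' z
      simp only [map_add, LinearMap.add_apply, hx, hx', smul_add]
    · intro c x hx z
      simp only [map_smul, LinearMap.smul_apply, hx, smul_comm c]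
    intro j
    refine en_induct ?_ ?_ ?_ ?_
    · simp
    · intro x x' hx hx'
      simp only [map_add, hx, hx', smul_add]
    · intro c x hx
      simp only [map_smul, hx, smul_comm c]
    exact fun k => hb i j k
  have hK : ∀ (c : ℝ) (w : EV n), Riem (coefIn g a) u w v v = (-c) • w →
      S.K (T v) (T w) = (4 / b ^ 2 * c) • T w := by
    intro c w hw
    rw [ACT.K_apply, hS, (act hL hN f).anti, ← hR, hw, map_smul]
    module
  have k1 : S.K (T v) (T w₁) = (4 * (4 / b ^ 2 * κ)) • T w₁ := by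
    rw [hK (4 * κ) w₁ (by rw [h1]; congr 1; ring)]
    congr 1; ring
  have k2 : S.K (T v) (T w₂) = (4 * (4 / b ^ 2 * κ)) • T w₂ := by
    rw [hK (4 * κ) w₂ (by rw [h2]; congr 1; ring)]
    congr 1; ring
  have k3 := hK κ w₃ h3
  have hli : LinearIndependent ℝ ![T w₁, T w₂] := by
    have h4 := hl.map' T (LinearMap.ker_eq_bot.2 hT)
    have h5 : (⇑T ∘ ![w₁, w₂]) = ![T w₁, T w₂] := by
      funext i
      fin_cases i <;> rfl
    rwa [h5] at h4
  have hT3 : T w₃ ≠ 0 := fun h0 => hw₃ (hT (by rw [h0, map_zero]))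
  obtain ⟨v', hv', hr, hx⟩ := s1.type (mul_pos hc hκ) hli hT3 k1 k2 k3
  have h22 : (2 : ℝ) ^ 2 = 4 := by norm_num
  rw [h22, s3 v' hv'] at hr
  rw [h22, div_self (by norm_num), one_smul] at hx
  exact ⟨b, d, hb, hr, hdn, H, f, S, v', T w₃, s1, s2, s3, hv', hT3, hx⟩

end

end Vale.Agent.P207.H747
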